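import Crest.Agent.X212.Pyl42.Main
import Crest.Agent.X212.Dck68.Main
import Crest.Agent.X212.Msi61.Lcy

/-!
# Row 212 (helper74): the leaf LY
-/

set_option autoImplicit false

namespace Crest.Agent.X212.Cl74
open G75

variable {κ lam : Type} [Fintype κ] [Fintype lam] [DecidableEq lam] {Lm : LM κ lam}

theorem pylS (H : Lns95.LH Lm) : Lix26.PylStmt Lm := Pyl42.pyl H Dck68.deck

/-- **LEAF LY** -/
theorem ly (H : Lns95.LH Lm) : Rf65.LyStmt Lm := fun S D i Wi r n J hS hJ l hl =>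
  let ⟨p, cv, h⟩ := pylS H S D i Wi r n J hS hJ l hl
  ⟨p, fun β b => (Msi61.cyStmt _ cv h β b).1⟩

end Crest.Agent.X212.Cl74
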