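import Crest.Agent.X212.Lix26.Defs
import Crest.Agent.X212.Dw82.Flc
import Crest.Agent.X212.Brk99.Tr
import Crest.Agent.X212.Lns4.Lin
import Crest.Agent.X212.Clr59.Pr

/-!
# Row 212, LIX-CL (3) (helper74): the limit of an odd twist is not central
-/

set_option autoImplicit false
set_option linter.unusedSectionVars false
noncomputable section
open scoped Manifold ContDiff Topology InnerProductSpace Real
open Set Function Filter

namespace Crest.Agent.X212.Cl74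
open An Nd18 Wz78 Pj41 Cyf70 Qab60 Lns95 Lix26 Eqv71 Sob92
open M (Mf)
open Abel74 (RedOn fm)
open Line51 (CSm ang)
open Clr59 (nu)
open Glue52 (dir)
open Rod53 (S3' L4)
open Rf65 (dz ParY)
open Rdc90 (Bs)

variable {E : Type} [NormedAddCommGroup E] [NormedSpace ℝ E] [FiniteDimensional ℝ E]
  [MeasurableSpace E] [BorelSpace E]
  {HM : Type} [TopologicalSpace HM] {I : ModelWithCorners ℝ E HM} [I.Boundaryless]
  {M : Type} [TopologicalSpace M] [ChartedSpace HM M] [IsManifold I ∞ M] [T2Space M]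
  [MeasurableSpace M] [BorelSpace M] [SecondCountableTopology M]

section gen
variable {ι : Type} [Fintype ι] {lam : Type} [Fintype lam] {B : Base M ι lam} {F : Fr I M ι}
  {m : Md M ι lam} {W W' : m.Cn} {ξ θ η : M → m.A} {U : Set M} {x : M} {e : M → Circle}
  {ν : ι → M → ℝ}

theorem D_circ (h : CSm I e x) (a : ι) :
    dv I (F.e a) (fun y => (e y : ℂ)) x = nu F e a x * (e x * Complex.I) := by
  have s := Clr59.sa_br h (Clr59.mem_arc _)
  have := dv_comp (e := F.e a) s.md ((Complex.ofRealCLM.hasDerivAt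
    (x := Clr59.br (Complex.arg (e x)) (e x))).mul_const Complex.I).cexp.hasFDerivAt
  simp only [Complex.ofRealCLM_apply, ← Circle.coe_exp, Clr59.exp_br] at this
  rw [this, ← Clr59.D_br F s]
  simp [Pre.D_def]

/-- the bracket with `ξ` -/
abbrev ad1 (ξ θ : M → m.A) (x : M) : m.A := adc (opL (ξ x)) (θ x)

/-- the complex coordinate of `η` -/
def zz (ξ θ η : M → m.A) (x : M) : ℂ :=
  (⟪ad1 ξ θ x, η x⟫_ℝ : ℝ) + Complex.I * (⟪ad1 ξ (ad1 ξ θ) x, η x⟫_ℝ / 2 : ℝ)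

theorem par_ad (R : RedOn F m W U ξ) (hx : x ∈ U) (s : SA I θ x) : SA I (ad1 ξ θ) x ∧
    ∀ a, nab I F.e (m.adW W) a θ x = 0 → nab I F.e (m.adW W) a (ad1 ξ θ) x = 0 := by
  have sJ : SA I (fun x => adc (opL (ξ x))) x := SA.clm (adcL ∘L opL) (R.sm x hx)
  refine ⟨sJ.app s, fun a p => ?_⟩
  have := nab_map (I := I) (e := F.e) (A := m.adW W) (A' := fun a y => ad _ (m.adW W a y))
    (adcL.comp opL) a (by rw [ad_apply, ContinuousLinearMap.comp_apply,
      ContinuousLinearMap.comp_apply, adcL_apply, adcL_apply, Md.adW, opL_adc, adc_lie]) (R.sm x hx)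
  rw [R.par x hx, map_zero] at this
  rw [nab_app' a sJ s, p, map_zero, add_zero]
  exact (congrArg (· (θ x)) this).trans rfl

variable (hB : B.OK I) (H : m.OK I B) (sk : ∀ a x, Skw (W a x)) (R : RedOn F m W U ξ)
  (T : RedOn F m W U θ) (N : RedOn F m W' U η)
include R T N

theorem sa_zz (hx : x ∈ U) : SA I (zz ξ θ η) x :=
  have s1 := (par_ad R hx (T.sm x hx)).1
  (SA.clm Complex.ofRealCLM (s1.inner (N.sm x hx))).add (SA.mul contMDiffAt_const
    (SA.clm Complex.ofRealCLM (((par_ad R hx s1).1.inner (N.sm x hx)).div_const 2)))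

include hB H sk

theorem D_zz (hx : x ∈ U) (a : ι) (hW : W' a x = W a x + ν a x • opL (ξ x)) :
    dv I (F.e a) (zz ξ θ η) x = -(2 * ν a x) * (zz ξ θ η x * Complex.I) := by
  obtain ⟨s1, p1⟩ := par_ad R hx (T.sm x hx)
  obtain ⟨s2, p2⟩ := par_ad R hx s1
  have k := adc_skw (g_skw (R.mem x hx))
  have n : nab I F.e (m.adW W) a η x = -(ν a x • ad1 ξ η x) := by
    have := N.par x hx a
    simp only [nab, Md.adW, hW, ← adcL_apply, map_add, map_smul, add_apply, smul_apply,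
      ← add_assoc] at this ⊢
    exact eq_neg_of_add_eq_zero_left this
  have d : ∀ {σ : M → m.A}, SA I σ x → nab I F.e (m.adW W) a σ x = 0 →
      dv I (F.e a) (fun y => ⟪σ y, η y⟫_ℝ) x = ν a x * ⟪ad1 ξ σ x, η x⟫_ℝ := fun s p => by
    rw [dv_inner (A := m.adW W) a (adc_skw (sk a x)) s (N.sm x hx), p, n, inner_zero_left, zero_add,
      inner_neg_right, real_inner_smul_right, k, mul_neg]
  have e3 : ad1 ξ (ad1 ξ (ad1 ξ θ)) x = (-4 : ℝ) • ad1 ξ θ x := by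
    have z : ⟪ξ x, ad1 ξ θ x⟫_ℝ = 0 := by
      rw [← neg_eq_zero, ← k]; simp [adc_apply]
    rw [ad1, ad1, Std94.adc_adc hB (Std94.pmx H x) (R.mem x hx) (adc_mem (R.mem x hx) (T.mem x hx)),
      z, Abel74.norm_sq H (R.mem x hx) (R.sq x hx)]
    module
  have i1 := s1.inner (N.sm x hx)
  have i2 := s2.inner (N.sm x hx)
  have e : zz ξ θ η = fun y => Complex.ofRealCLM ⟪ad1 ξ θ y, η y⟫_ℝ +
      ((Complex.I / 2) • Complex.ofRealCLM) ⟪ad1 ξ (ad1 ξ θ) y, η y⟫_ℝ := funext fun y => by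
    simp [zz]; ring
  rw [e, dv_add' (SA.clm _ i1) (SA.clm _ i2), dv_clm _ i1.md, dv_clm _ i2.md, d s1 (p1 a (T.par x hx a)),
    d s2 (p2 a (p1 a (T.par x hx a))), e3, real_inner_smul_left]
  simp
  linear_combination (ν a x * (⟪ad1 ξ (ad1 ξ θ) x, η x⟫_ℝ : ℝ) : ℂ) * Complex.I_mul_I

theorem loc_const (hU : IsOpen U) (hW : ∀ a, ∀ x ∈ U, W' a x = W a x + ν a x • opL (ξ x))
    (he : ∀ x ∈ U, CSm I e x ∧ ∀ a, nu F e a x = 4 * ν a x) (hx : x ∈ U) :
    (fun y => zz ξ θ η y * zz ξ θ η y * e y) =ᶠ[𝓝 x] fun _ => zz ξ θ η x * zz ξ θ η x * e x := by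
  refine Dfl49.par_uniq (F := F) (A := fun _ _ => (0 : ℂ →L[ℝ] ℂ))
    (.of_forall fun y a => ⟨contMDiffAt_const, by simp⟩) ((hU.eventually_mem hx).mono fun y hy => ?_)
    (.of_forall fun y => ⟨contMDiffAt_const, fun a => by simp [nab]⟩) rfl
  have s := sa_zz R T N hy
  have s' : SA I (fun y => (e y : ℂ)) y := Rod53.cm_coe (he y hy).1
  refine ⟨(s.mul s).mul s', fun a => ?_⟩
  have d1 := dv_bil (e := F.e a) (ContinuousLinearMap.mul ℝ ℂ) s.md s.md
  have d2 := dv_bil (e := F.e a) (ContinuousLinearMap.mul ℝ ℂ) (s.mul s).md s'.md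
  simp only [ContinuousLinearMap.mul_apply'] at d1 d2
  rw [nab, d2, d1, D_zz hB H sk R T N hy a (hW a y hy), D_circ (he y hy).1, (he y hy).2]
  simp
  ring

/-- along a loop on which the phase winds an odd number of times the coordinate vanishes -/
theorem loop_zero (hU : IsOpen U) (hW : ∀ a, ∀ x ∈ U, W' a x = W a x + ν a x • opL (ξ x))
    (he : ∀ x ∈ U, CSm I e x ∧ ∀ a, nu F e a x = 4 * ν a x) {γ : ℝ → M} (hγ : Continuous γ)
    (hm : ∀ s, γ s ∈ U) (hc : γ π = γ 0) {n : ℤ} (hn : Odd n)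
    (hw : ∀ s, (e (γ s) : ℂ) = Complex.exp (n * s * Complex.I) ^ 2) : zz ξ θ η (γ 0) = 0 := by
  by_contra z0
  have lc : IsLocallyConstant fun s => zz ξ θ η (γ s) * zz ξ θ η (γ s) * e (γ s) :=
    (IsLocallyConstant.iff_eventually_eq _).2 fun s =>
      hγ.continuousAt.eventually (loc_const hB H sk R T N hU hW he (hm s))
  have cz : Continuous fun s => zz ξ θ η (γ s) := continuous_iff_continuousAt.2 fun s =>
    (sa_zz R T N (hm s)).continuousAt.comp hγ.continuousAt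
  have := isPreconnected_univ.eq_of_sq_eq (𝕜 := ℂ)
    (f := fun s : ℝ => zz ξ θ η (γ s) * Complex.exp (n * s * Complex.I))
    (g := fun _ => zz ξ θ η (γ 0)) (by fun_prop) continuousOn_const (fun s _ => by
      have := lc.apply_eq_of_preconnectedSpace s 0
      simp only [hw] at this
      simp at this ⊢
      linear_combination this) (fun _ => z0) (mem_univ 0) (by simp) (mem_univ π)
  obtain ⟨k, rfl⟩ := hn
  have e1 : Complex.exp (((2 * k + 1 : ℤ) : ℂ) * (π : ℝ) * Complex.I) = -1 := by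
    rw [← Complex.exp_pi_mul_I, Complex.exp_eq_exp_iff_exists_int]
    exact ⟨k, by push_cast; ring⟩
  simp only [hc, e1] at this
  exact z0 (by linear_combination (-1 / 2 : ℂ) * this)

end gen

variable {Y : Mf 3} [CompactSpace Y.M] {κ : Type} [Fintype κ] {lam : Type} [Fintype lam]

theorem red_push {D : YD Y.I Y.M κ lam} {B : Base M (Option κ) lam} {G : Geo I M (Option κ) lam}
    {K : Nk D B G} {r : ℕ} {c : Cfg M (Option κ) lam r} {T : Set ℝ} {η : Y.M × ℝ → c.m.A}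
    (R : RedOn D.Z (K.pb c).m (K.pb c).W (univ ×ˢ T) η) (h : T ⊆ K.J) :
    RedOn G.F c.m c.W (K.tm ⁻¹' T) fun x => η (K.ψ.symm x) := by
  have tg : ∀ x ∈ K.tm ⁻¹' T, x ∈ K.ψ.target := fun x hx => K.tgt ▸ h hx
  have mp : MapsTo K.ψ.symm (K.tm ⁻¹' T) (univ ×ˢ T) := fun x hx =>
    ⟨trivial, (K.snd_symm (tg x hx)).symm ▸ hx⟩
  have ri := fun x hx => K.ψ.right_inv (tg x hx)
  refine ⟨fun x hx => K.rel'.sm (tg x hx) (R.sm _ (mp hx)), fun x hx => ?_, fun x hx => ?_,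
    fun x hx a => (K.rel'.nab (tg x hx) a (A' := (K.pb c).m.adW (K.pb c).W) ?_
      (.of_forall fun _ => rfl)).trans (R.par _ (mp hx) a)⟩
  · rw [← ri x hx]; simpa only [K.ψ.left_inv (K.ψ.map_target (tg x hx))] using! R.mem _ (mp hx)
  · simpa only [Nk.pb, Nd18.pb, pbM, ri x hx] using! R.sq _ (mp hx)
  · exact congrArg (fun y => adc (c.W a y)) (ri x hx).symm

/-- a circle in the sphere -/
def ys (s : ℝ) : S3' := ⟨L4.symm (0, Circle.exp s), by
  have := Rod53.norm_L4 (L4.symm (0, Circle.exp s))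
  rw [L4.apply_symm_apply] at this
  exact mem_sphere_zero_iff_norm.2 ((pow_eq_one_iff_of_nonneg (norm_nonneg _) two_ne_zero).1
    (by simpa using this.symm))⟩

theorem L4_ys (s : ℝ) : L4 (ys s) = (0, (Circle.exp s : ℂ)) := L4.apply_symm_apply _

theorem cont_ys : Continuous ys := Continuous.subtype_mk (by fun_prop) _

variable [DecidableEq lam] {D : YD Y.I Y.M κ (lam ⊕ lam)} {B : Base M (Option κ) (lam ⊕ lam)}
  {G : Geo I M (Option κ) (lam ⊕ lam)} {K : Nk D B G} {Ω : Set M} {d : Mdl K Ω} {r : ℕ}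
  {c₀ c : Cfg M (Option κ) (lam ⊕ lam) r} {ξ₀ : M → c₀.m.A} {ξ : M → c.m.A}
  {β : YC Y.M κ (lam ⊕ lam)} {j : ℤ}

/-- **CL (3)** -/
theorem odd (hd : d.OK) (A0 : Ab B G Ω c₀ ξ₀) (fl : ∀ x ∈ Ω, fm G.F c₀.m c₀.W ξ₀ x = 0)
    (hβ : Bs D β) (A : Ab B G Ω c ξ) (tw : d.Tw j c₀ ξ₀ c ξ) (st : K.Std c.con β 1 atTop)
    (hj : Odd j) : dz D β ≠ 3 := fun h3 => by
  have hB := hd.ins.hB
  have hG := hd.ins.hG
  have H := A0.adm.ok
  obtain ⟨v, k, ε, -, tw⟩ := tw
  obtain ⟨u, S, hS, hJ, cl⟩ := st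
  obtain ⟨t, t0, ht⟩ := ((eventually_gt_atTop 0).and hS).exists
  have ch := d.Ds.ch false
  let U := (d.Ds.O false ∩ d.Ds.w false ⁻¹' {0}ᶜ) ∩ K.tm ⁻¹' (S ∩ Ioi 0)
  have hU : IsOpen U := (ContinuousOn.isOpen_inter_preimage (fun x hx =>
    (ch.sw x hx).continuousAt.continuousWithinAt) ch.op isOpen_compl_singleton).inter
    ((cl.op.inter isOpen_Ioi).preimage K.cont)
  have sub : U ⊆ Ω := fun x hx => (d.Ds.cov x).2 ⟨false, hx.1.1⟩
  let γ : ℝ → M := fun s => K.ψ (d.cv (ys (s / 2)), t)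
  have src : ∀ y, (y, t) ∈ K.ψ.source := fun y => K.mem_src.2 (hJ ht)
  have nk := fun s => hd.nk false (ys s) t t0 (by simp [Th, L4_ys])
  have hw : ∀ s, dir (d.Ds.w false (γ s)) = Circle.exp (s / 2) ^ 4 ∧ d.Ds.w false (γ s) ≠ 0 :=
    fun s => by
      obtain ⟨ρ, h1, h2⟩ := (nk (s / 2)).2.2
      have e : dir (Th false (ys (s / 2))).2 = Circle.exp (s / 2) := by
        simpa [Th, L4_ys] using Glue52.dir_mul one_pos (Circle.exp (s / 2))
      rw [show d.Ds.w false (γ s) = _ from h2, e]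
      exact ⟨Glue52.dir_mul h1 _, mul_ne_zero (by exact_mod_cast h1.ne') (Circle.coe_ne_zero _)⟩
  have hm : ∀ s, γ s ∈ U := fun s => ⟨⟨(nk _).1, (hw s).2⟩, by
    rw [mem_preimage, K.tm_ψ _ (src _)]; exact ⟨ht, t0⟩⟩
  have cv := hd.cv.ld.contMDiff.continuous
  have hγ : Continuous γ := continuous_iff_continuousAt.2 fun s =>
    (K.ψ.continuousAt (src _)).comp (f := fun s : ℝ => (d.cv (ys (s / 2)), t))
      ((cv.comp (cont_ys.comp (continuous_id.div_const 2))).prodMk continuous_const).continuousAt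
  have hc : γ π = γ 0 := congrArg (fun y => K.ψ (y, t)) ((hd.cv.dk _ _).2 ⟨Complex.I,
    Complex.I_pow_four, by simp [L4_ys]⟩).symm
  obtain ⟨n, hn, en⟩ : ∃ n : ℤ, Odd n ∧ (n : ℝ) = -2 * j * d.μ := by
    rcases (abs_eq (by norm_num)).1 hd.hμ with e | e
    exacts [⟨-j, hj.neg, by rw [e]; push_cast; ring⟩, ⟨j, hj, by rw [e]; ring⟩]
  have he : ∀ x ∈ U, CSm I ((fun x => dir (d.Ds.w false x)) ^ n) x ∧ ∀ a,
      nu G.F ((fun x => dir (d.Ds.w false x)) ^ n) a x =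
        4 * c1 G.F ((j / 2 : ℝ) • d.al false) x a := fun x hx => by
    have s := Rod53.cm_dir (ch.sw x hx.1.1) hx.1.2
    refine ⟨CSm.zpow s n, fun a => ?_⟩
    have e : ang I ((fun x => dir (d.Ds.w false x)) ^ n) x =
        ((4 : ℝ) • (j / 2 : ℝ) • d.al false) x := by
      rw [Line51.ang_zpow s, Pi.smul_apply, Pi.smul_apply, show d.al false x = _ from
        Lns4.al_flat d.P d.μ four_ne_zero (ch.sw x hx.1.1) hx.1.2
          (hd.fl false x hx.1.1 hx.2.2).2.1, en, smul_smul, smul_smul]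
      congr 1; ring
    rw [← Clr59.c1_ang G.F (CSm.zpow s n), ← smul_eq_mul, ← PiLp.smul_apply, ← Pi.smul_apply,
      ← c1_smul]
    simp only [Qab60.c1, Num57.k1, e]
  have hW : ∀ a x, (ada G.F c₀ ξ₀ ((j / 2 : ℝ) • d.al false)).W a x =
      c₀.W a x + c1 G.F ((j / 2 : ℝ) • d.al false) x a • opL (ξ₀ x) := fun a x =>
    congrArg (c₀.W a x + ·) (map_smul opL _ _)
  have R := A0.rd.toRedOn.mono sub
  have ad : c.con.Adm B G := ⟨A.adm.ok, A.adm.conn, contMDiff_const, fun _ => map_zero _, .inl rfl⟩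
  have a1 := Sep15.Qa.adm_pb ad hJ
  have a2 := (Tmp64.admOn_univ.2 hβ.adm.adm).mono (subset_univ (univ ×ˢ S))
  have p1 := (Dfl49.pi_of_cl (Bki64.cl_of_cls hβ.adm a1 cl) a1).symm a1 a2
  have p2 := (tw.pi false).mono (O := U) fun x hx => hx.1.1
  have i2 := p2.iso.symm (OK.on H U) (OK.on A.adm.ok U)
  have sk' : ∀ a, ∀ x ∈ U, ∀ s : ℝ, Skw (c₀.W a x + s • opL (ξ₀ x)) := fun a x hx s v w => by
    simp only [add_apply, smul_apply, inner_add_left, inner_add_right, real_inner_smul_left,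
      real_inner_smul_right, A0.adm.conn.sk a x v w, g_skw (R.mem x hx) v w]
    ring
  have sk : ∀ a, ∀ x ∈ U, Skw ((ada G.F c₀ ξ₀ ((j / 2 : ℝ) • d.al false)).W a x) :=
    fun a x hx => (congrArg Skw (hW a x)).mpr (sk' a x hx _)
  have : PreconnectedSpace Y.M := ⟨hd.cv.sj.range_eq ▸ isPreconnected_range cv⟩
  have mp : K.ψ.symm (γ 0) ∈ univ ×ˢ S := by rw [K.ψ.left_inv (src _)]; exact ⟨trivial, ht⟩
  let T : Clr59.parS D β →ₗ[ℝ] c₀.m.A := (cj (Pj41.ad (v false (γ 0))) ∘L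
    cj (Pj41.ad (u (K.ψ.symm (γ 0))))).toLinearMap ∘ₗ LinearMap.proj (K.ψ.symm (γ 0)).1 ∘ₗ
      (Clr59.parS D β).subtype
  have nT : ∀ ζ, ⟪T ζ, T ζ⟫_ℝ = ⟪ζ.1 (K.ψ.symm (γ 0)).1, ζ.1 (K.ψ.symm (γ 0)).1⟫_ℝ := fun ζ => by
    have m1 := Loc66.cj_mem p1.iso a2.ok a1.ok mp (ζ.2.mem _)
    refine (Loc66.inner_cj_g i2 (hm 0) _ ?_).trans (Loc66.inner_cj_g p1.iso mp _ (ζ.2.mem _))
    have m2 : _ ∈ c.m.gS (K.ψ (K.ψ.symm (γ 0))) := m1
    rw [K.ψ.right_inv (show γ 0 ∈ _ from K.ψ.map_source (src _))] at m2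
    exact m2
  have np := fun ζ : Clr59.parS D β => Clr59.norm_par hβ.ok hβ.adm ζ.2
  have iT : Injective T := (injective_iff_map_eq_zero _).2 fun ζ e => Subtype.ext (funext fun y =>
    norm_eq_zero.1 ((np ζ y _).trans (norm_eq_zero.2 (inner_self_eq_zero.1 ((nT ζ).symm.trans
      (by rw [e, inner_zero_left]))))))
  obtain ⟨ζ, hζ⟩ : ∃ ζ, T ζ ∉ Submodule.span ℝ {ξ₀ (γ 0)} := by
    by_contra! k
    have := Submodule.finrank_mono (show LinearMap.range T ≤ _ by rintro _ ⟨ζ, rfl⟩; exact k ζ)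
    rw [LinearMap.finrank_range_of_inj iT, ← Clr59.dz_def, h3] at this
    simpa using this.trans (finrank_span_le_card _)
  have z0 : ∀ y, ‖ζ.1 y‖ ≠ 0 := fun y e => hζ (by
    rw [show ζ = 0 from Subtype.ext (funext fun y' => norm_eq_zero.1 ((np ζ y' y).trans e)), map_zero]
    exact zero_mem _)
  let ζ' := (4 / ‖ζ.1 (d.cv (ys 0))‖) • ζ
  have N := Brk99.red_iso ((red_push (c := c.con) (Brk99.red_iso ((Clr59.red_of hβ.ok hβ.adm ζ'.2
    fun y => by
      rw [show ζ'.1 y = (4 / ‖ζ.1 (d.cv (ys 0))‖) • ζ.1 y from rfl, norm_smul, norm_div, norm_norm, np ζ y (d.cv (ys 0)),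
        div_mul_cancel₀ _ (z0 _)]
      norm_num).on _) p1.iso a2.ok a1.ok a2.conn.sk a1.conn.sk p1.par) hJ).mono (O' := U)
      fun x hx => hx.2.1) i2 (OK.on A.adm.ok U) (OK.on H U) (fun a x _ => A.adm.conn.sk a x) sk
    (p2.par.symm p2.iso.su sk fun a x _ => A.adm.conn.sk a x)
  have m0 := R.mem _ (hm 0)
  have m1 : T ζ' ∈ c₀.m.gS (γ 0) := N.mem _ (hm 0)
  have w0 : adc (opL (ξ₀ (γ 0))) (T ζ') ≠ 0 := fun e => hζ (by
    have := Std94.adc_adc hB (Std94.pmx H _) m0 m1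
    rw [e, map_zero, eq_comm, smul_eq_zero, sub_eq_zero, or_iff_right (by norm_num),
      Abel74.norm_sq H m0 (R.sq _ (hm 0)), map_smul, smul_smul] at this
    exact (Submodule.smul_mem_iff _ (mul_ne_zero (by norm_num) (div_ne_zero four_ne_zero (z0 _)))).1
      (this ▸ Submodule.smul_mem _ _ (Submodule.mem_span_singleton_self _)))
  obtain ⟨θ, Tθ, e1, -⟩ := Dw82.exists_val hB hG A0.adm hd.ins.cl.2 (sub (hm 0))
    (hd.ins.sc.2 _ (sub (hm 0))) (fun z hz => PiLp.ext fun s => by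
      rw [A0.rd.Fg_eq hB hG H A0.adm.conn hz, ← Abel74.k2_fm hG A0.adm.conn]
      simp [Num57.k2, fl z hz, Num57.e2])
    (Submodule.smul_mem _ _ (adc_mem m0 m1)) (Dw82.inner_unit w0)
  have := congrArg Complex.re (loop_zero hB H A0.adm.conn.sk R (Tθ.mono sub) N hU
    (fun a x _ => hW a x) he hγ hm hc hn fun s => by
      rw [Pi.pow_apply, (hw s).1, Circle.coe_zpow, Circle.coe_pow, Circle.coe_exp, ← Complex.exp_nat_mul,
        ← Complex.exp_int_mul, ← Complex.exp_nat_mul]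
      congr 1; push_cast; ring)
  simp only [zz, Complex.add_re, Complex.ofReal_re, Complex.I_mul_re, Complex.ofReal_im, neg_zero,
    add_zero, Complex.zero_re] at this
  replace this : ⟪adc (opL (ξ₀ (γ 0))) (θ (γ 0)), T ζ'⟫_ℝ = 0 := this
  rw [adc_skw (g_skw m0), e1, real_inner_smul_left, neg_eq_zero] at this
  exact mul_ne_zero (div_ne_zero four_ne_zero (norm_ne_zero_iff.2 w0)) (inner_self_ne_zero.2 w0) this

end Crest.Agent.X212.Cl74
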